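import Vale.Agent.P128.MathlibUsed

open MeasureTheory Set Metric
open scoped ENNReal ContDiff

namespace Vale.Agent.P128

/-- `G` is the weak gradient of `u` on the open subset `U` of the Euclidean plane `ℂ`. -/
def IsWeakGrad (U : Set ℂ) (u : ℂ → ℝ) (G : ℂ → ℂ) : Prop :=
  ∀ φ : ℂ → ℝ, ContDiff ℝ ∞ φ → HasCompactSupport φ → tsupport φ ⊆ U → ∀ v : ℂ,
    ∫ z in U, u z * fderiv ℝ φ z v = - ∫ z in U, inner ℝ (G z) v * φ z

/-- Admissible pairs `(u, K)` in `Ω`, the weak gradient `G` of `u` being recorded. -/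
structure Admissible (Ω : Set ℂ) (u : ℂ → ℝ) (G : ℂ → ℂ) (K : Set ℂ) : Prop where
  subset : K ⊆ Ω
  relClosed : Ω ∩ closure K ⊆ K
  finite : μH[1] K < ⊤
  memLp : MemLp u 2 (volume.restrict Ω)
  grad_memLp : MemLp G 2 (volume.restrict (Ω \ K))
  weak : IsWeakGrad (Ω \ K) u G

/-- The Mumford-Shah energy of `(u, K)` in `V`. -/
noncomputable def energy (g u : ℂ → ℝ) (G : ℂ → ℂ) (K V : Set ℂ) : ℝ≥0∞ :=
  (∫⁻ z in V \ K, ENNReal.ofReal (‖G z‖ ^ 2)) + μH[1] (K ∩ V)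
    + ∫⁻ z in V, ENNReal.ofReal ((u z - g z) ^ 2)

/-- Minimizers: compactly supported perturbations do not lower the energy. -/
def IsMinimizer (Ω : Set ℂ) (g u : ℂ → ℝ) (G : ℂ → ℂ) (K : Set ℂ) : Prop :=
  Admissible Ω u G K ∧
    ∀ V : Set ℂ, IsOpen V → IsCompact (closure V) → closure V ⊆ Ω →
      ∀ (w : ℂ → ℝ) (H : ℂ → ℂ) (L : Set ℂ), Admissible Ω w H L →
        (∃ C : Set ℂ, IsCompact C ∧ C ⊆ V ∧ symmDiff L K ⊆ C ∧
          ∀ᵐ z ∂(volume.restrict Ω), z ∉ C → w z = u z) →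
        energy g u G K V ≤ energy g w H L V

/-- `K` is reduced: it has positive length in every small disk centred on it. -/
def IsReduced (Ω K : Set ℂ) : Prop :=
  ∀ x ∈ K, ∀ r > 0, closedBall x r ⊆ Ω → 0 < μH[1] (K ∩ ball x r)

end Vale.Agent.P128
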