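import Mathlib.Algebra.Group.Translate
import Mathlib.Algebra.Order.Archimedean.Real.Hom
import Mathlib.Algebra.Order.Chebyshev
import Mathlib.Algebra.Ring.IsFormallyReal
import Mathlib.Analysis.Calculus.BumpFunction.Convolution
import Mathlib.Analysis.Calculus.Gradient.Basic
import Mathlib.Analysis.Calculus.LineDeriv.IntegrationByParts
import Mathlib.Analysis.Calculus.Rademacher
import Mathlib.Analysis.Complex.AbsMax
import Mathlib.Analysis.Complex.Angle
import Mathlib.Analysis.Complex.ExponentialBounds
import Mathlib.Analysis.Complex.Harmonic.MeanValue
import Mathlib.Analysis.Complex.Polynomial.Basic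
import Mathlib.Analysis.Fourier.AddCircle
import Mathlib.Analysis.InnerProductSpace.NormDet
import Mathlib.Analysis.InnerProductSpace.OfNorm
import Mathlib.Analysis.Normed.Module.Connected
import Mathlib.Analysis.Real.Pi.Bounds
import Mathlib.Analysis.SpecialFunctions.Pow.Integral
import Mathlib.Computability.Reduce
import Mathlib.Control.Monad.Cont
import Mathlib.Data.Int.Star
import Mathlib.MeasureTheory.Function.Holder
import Mathlib.MeasureTheory.Function.SpecialFunctions.Inner
import Mathlib.MeasureTheory.Integral.IntervalIntegral.AbsolutelyContinuousFun
import Mathlib.MeasureTheory.Measure.Lebesgue.VolumeOfBalls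
import Mathlib.MeasureTheory.Measure.RegularityCompacts
import Mathlib.MeasureTheory.Measure.SeparableMeasure
import Mathlib.MeasureTheory.Order.Group.Lattice
import Mathlib.Order.CompletePartialOrder
import Mathlib.Probability.Distributions.Fernique
import Mathlib.RingTheory.Etale.Weakly
import Mathlib.RingTheory.Flat.TorsionFree
import Mathlib.RingTheory.SimpleRing.Principal
import Mathlib.RingTheory.TotallySplit
import Mathlib.Tactic
import Mathlib.Topology.ContinuousMap.SecondCountableSpace
import Mathlib.Topology.Homotopy.Lifting
import Mathlib.Topology.UniformSpace.Uniformizable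

/-! The part of Mathlib that the development of this folder uses. -/
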